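import Vale.Agent.P073Z.SURF.Scx.Glue

/-!
# A closed fan of discs around a vertex is a disc
-/

open Set Metric Topology Filter

namespace P073.SF

variable {E : Type} [NormedAddCommGroup E] [NormedSpace ℝ E]

/-- exactly two elements -/
def Two {δ : Type} (P : δ → Prop) : Prop := ∃ d₁ d₂, d₁ ≠ d₂ ∧ ∀ d, P d ↔ (d = d₁ ∨ d = d₂)

theorem Two.other {δ : Type} {P : δ → Prop} (h : Two P) {d : δ} (hd : P d) :
    ∃ e, e ≠ d ∧ P e ∧ ∀ x, P x → x = d ∨ x = e := by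
  obtain ⟨d₁, d₂, hne, H⟩ := h
  rcases (H d).1 hd with rfl | rfl
  · exact ⟨d₂, hne.symm, (H _).2 (Or.inr rfl), fun x hx => (H x).1 hx⟩
  · exact ⟨d₁, hne, (H _).2 (Or.inl rfl), fun x hx => ((H x).1 hx).symm⟩

theorem Two.three {δ : Type} {P : δ → Prop} (h : Two P) {a b c : δ} (ha : P a) (hb : P b)
    (hc : P c) (hab : a ≠ b) : c = a ∨ c = b := by
  obtain ⟨e, -, -, H⟩ := h.other ha
  rcases H b hb with rfl | rfl
  · exact (hab rfl).elim
  · exact H c hc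

/-- discs around a point, glued along arcs that start at the point -/
structure Fan {α δ : Type} (inc : α → δ → Prop) (v : E) (m : α → E) (ρ : α → Set E)
    (W Bd : δ → Set E) : Prop where
  arc : ∀ a, IsArc (ρ a) v (m a)
  arc_inter : ∀ a a', a ≠ a' → ρ a ∩ ρ a' ⊆ {v}
  ball : ∀ d, ConBall 2 (W d) (Bd d)
  sub : ∀ a d, inc a d → ρ a ⊆ Bd d
  two_cell : ∀ a, Two (inc a)
  two_arc : ∀ d, Two (fun a => inc a d)
  inter : ∀ d d', d ≠ d' → ∀ x ∈ W d, x ∈ W d' → x = v ∨ ∃ a, inc a d ∧ inc a d' ∧ x ∈ ρ a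
  link : ∀ T : Set δ, (∀ a d d', inc a d → inc a d' → d ∈ T → d' ∈ T) →
    ∀ d d', d ∈ T → d' ∈ T

/-- the arc separates the chosen cells from the others -/
def Free {α δ : Type} (inc : α → δ → Prop) (T : Set δ) (a : α) : Prop :=
  (∃ d ∈ T, inc a d) ∧ ∃ d ∉ T, inc a d

theorem Fan.step {α δ : Type} {inc : α → δ → Prop} {v : E} {m : α → E} {ρ : α → Set E}
    {W Bd : δ → Set E} (h : Fan inc v m ρ W Bd) {T : Set δ} {a a' : α} {B : Set E}
    (hne : a ≠ a') (hT : ConBall 2 (⋃ d ∈ T, W d) B) (ha : ρ a ⊆ B) (ha' : ρ a' ⊆ B)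
    (hf : ∀ b, Free inc T b ↔ (b = a ∨ b = a')) :
    (∃ B', ConBall 2 (⋃ d, W d) B' ∧ v ∉ B') ∨
    ∃ (T' : Set δ) (b : α) (B' : Set E), T < T' ∧ b ≠ a' ∧ ConBall 2 (⋃ d ∈ T', W d) B' ∧
      ρ b ⊆ B' ∧ ρ a' ⊆ B' ∧ ∀ c, Free inc T' c ↔ (c = b ∨ c = a') := by
  obtain ⟨⟨d₀, hd₀, hi₀⟩, e, he, hie⟩ := (hf a).2 (Or.inl rfl)
  obtain ⟨⟨d₁, hd₁, hi₁⟩, e₁, he₁, hie₁⟩ := (hf a').2 (Or.inr rfl)
  obtain ⟨b, hba, hb, hb2⟩ := (h.two_arc e).other hie
  have hU : (⋃ d ∈ insert e T, W d) = (⋃ d ∈ T, W d) ∪ W e := by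
    rw [biUnion_insert, union_comm]
  -- points common to the new disc and the old ones
  have key : ∀ x ∈ (⋃ d ∈ T, W d), x ∈ W e →
      x = v ∨ ∃ c, inc c e ∧ (c = a ∨ c = a') ∧ x ∈ ρ c := by
    intro x hx hxe
    obtain ⟨d, hd, hxd⟩ := mem_iUnion₂.1 hx
    rcases h.inter d e (fun h' => he (h' ▸ hd)) x hxd hxe with h1 | ⟨c, h1, h2, h3⟩
    · exact Or.inl h1
    · exact Or.inr ⟨c, h2, (hf c).1 ⟨⟨d, hd, h1⟩, e, he, h2⟩, h3⟩
  -- an arc with a cell in `T` and the cell `e` has no third cell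
  have full : ∀ c d d', d ∈ T → inc c d → inc c e → inc c d' → d' ∈ insert e T := by
    intro c d d' hd h1 h2 h3
    rcases (h.two_cell c).three h1 h2 h3 (fun h' => he (h' ▸ hd)) with rfl | rfl
    · exact Or.inr hd
    · exact Or.inl rfl
  by_cases hb' : b = a'
  · left
    subst hb'
    have hβ : IsArc (ρ a ∪ ρ b) (m a) (m b) :=
      (h.arc a).symm.trans (h.arc b) (h.arc_inter a b hne)
    have hs1 : ρ a ∪ ρ b ⊆ B := union_subset ha ha'
    have hs2 : ρ a ∪ ρ b ⊆ Bd e := union_subset (h.sub a e hie) (h.sub b e hb)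
    have hI : (⋃ d ∈ T, W d) ∩ W e = ρ a ∪ ρ b := by
      refine Subset.antisymm ?_ (subset_inter (hs1.trans hT.1) (hs2.trans (h.ball e).1))
      rintro x ⟨hx, hxe⟩
      rcases key x hx hxe with rfl | ⟨c, -, rfl | rfl, h3⟩
      · exact Or.inl (h.arc a).left_mem
      · exact Or.inl h3
      · exact Or.inr h3
    have hall : ∀ d, d ∈ insert e T := by
      refine fun d => h.link (insert e T) ?_ e d (Or.inl rfl)
      rintro c d d' h1 h2 hd
      by_contra hd'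
      rcases hd with rfl | hd
      · rcases hb2 c h1 with rfl | rfl
        · exact hd' (full c d₀ d' hd₀ hi₀ h1 h2)
        · exact hd' (full c d₁ d' hd₁ hi₁ h1 h2)
      · rcases (hf c).1 ⟨⟨d, hd, h1⟩, d', fun h' => hd' (Or.inr h'), h2⟩ with rfl | rfl
        · exact hd' (full c d d' hd h1 hie h2)
        · exact hd' (full c d d' hd h1 hb h2)
    have hU' : (⋃ d, W d) = (⋃ d ∈ T, W d) ∪ W e := by
      rw [← hU]
      exact Subset.antisymm (iUnion_subset fun d => subset_biUnion_of_mem (u := W) (hall d))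
        (iUnion₂_subset fun d _ => subset_iUnion W d)
    refine ⟨_, hU' ▸ uni hT (h.ball e) hβ hI hs1 hs2,
      fun hv => hv.2 ⟨Or.inl (h.arc a).left_mem, ?_⟩⟩
    rintro (h1 | h1)
    · exact (h.arc a).ne h1
    · exact (h.arc b).ne h1
  · right
    have hI : (⋃ d ∈ T, W d) ∩ W e = ρ a := by
      refine Subset.antisymm ?_
        (subset_inter (ha.trans hT.1) ((h.sub a e hie).trans (h.ball e).1))
      rintro x ⟨hx, hxe⟩
      rcases key x hx hxe with rfl | ⟨c, h1, rfl | rfl, h3⟩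
      · exact (h.arc a).left_mem
      · exact h3
      · rcases hb2 c h1 with h4 | h4
        · exact (hne h4.symm).elim
        · exact (hb' h4.symm).elim
    have hout : ∀ c, c ≠ a → ∀ x ∈ ρ c, x ∉ ρ a \ {v, m a} := fun c hc x hx hx' =>
      hx'.2 (Or.inl (h.arc_inter c a hc ⟨hx, hx'.1⟩))
    refine ⟨insert e T, b, (B ∪ Bd e) \ (ρ a \ {v, m a}), ssubset_insert he, hb',
      hU ▸ uni hT (h.ball e) (h.arc a) hI ha (h.sub a e hie),
      fun x hx => ⟨Or.inr (h.sub b e hb hx), hout b hba x hx⟩,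
      fun x hx => ⟨Or.inl (ha' hx), hout a' hne.symm x hx⟩, fun c => ⟨?_, ?_⟩⟩
    · rintro ⟨⟨d, hd, h1⟩, d', hd', h2⟩
      rcases hd with rfl | hd
      · rcases hb2 c h1 with rfl | rfl
        · exact (hd' (full c d₀ d' hd₀ hi₀ h1 h2)).elim
        · exact Or.inl rfl
      · rcases (hf c).1 ⟨⟨d, hd, h1⟩, d', fun h' => hd' (Or.inr h'), h2⟩ with rfl | rfl
        · exact (hd' (full c d d' hd h1 hie h2)).elim
        · exact Or.inr rfl
    · rintro (rfl | rfl)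
      · obtain ⟨e', he', h1, -⟩ := (h.two_cell c).other hb
        refine ⟨⟨e, Or.inl rfl, hb⟩, e', ?_, h1⟩
        rintro (h2 | h2)
        · exact he' h2
        · rcases (hf c).1 ⟨⟨e', h2, h1⟩, e, he, hb⟩ with h3 | h3
          · exact hba h3
          · exact hb' h3
      · refine ⟨⟨d₁, Or.inr hd₁, hi₁⟩, e₁, ?_, hie₁⟩
        rintro (rfl | h2)
        · rcases hb2 c hie₁ with h3 | h3
          · exact hne h3.symm
          · exact hb' h3.symm
        · exact he₁ h2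

theorem Fan.disc {α δ : Type} [Finite δ] [Nonempty δ] {inc : α → δ → Prop} {v : E} {m : α → E}
    {ρ : α → Set E} {W Bd : δ → Set E} (h : Fan inc v m ρ W Bd) :
    ∃ B, ConBall 2 (⋃ d, W d) B ∧ v ∉ B := by
  have main : ∀ (T : Set δ) (a a' : α) (B : Set E), a ≠ a' → ConBall 2 (⋃ d ∈ T, W d) B →
      ρ a ⊆ B → ρ a' ⊆ B → (∀ b, Free inc T b ↔ (b = a ∨ b = a')) →
      ∃ B, ConBall 2 (⋃ d, W d) B ∧ v ∉ B := by
    intro T
    induction T using WellFoundedGT.induction with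
    | ind T ih =>
      intro a a' B h1 h2 h3 h4 h5
      rcases h.step h1 h2 h3 h4 h5 with h6 | ⟨T', b, B', k0, k1, k2, k3, k4, k5⟩
      · exact h6
      · exact ih T' k0 b a' B' k1 k2 k3 k4 k5
  obtain ⟨d⟩ := ‹Nonempty δ›
  obtain ⟨a, a', hne, H⟩ := h.two_arc d
  refine main {d} a a' (Bd d) hne (by rw [biUnion_singleton]; exact h.ball d)
    (h.sub a d ((H a).2 (Or.inl rfl))) (h.sub a' d ((H a').2 (Or.inr rfl))) fun b => ⟨?_, ?_⟩
  · rintro ⟨⟨e, rfl, h1⟩, -⟩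
    exact (H b).1 h1
  · intro hb
    obtain ⟨e, he, h1, -⟩ := (h.two_cell b).other ((H b).2 hb)
    exact ⟨⟨d, rfl, (H b).2 hb⟩, e, he, h1⟩

end P073.SF
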