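import Vale.Agent.P073Z.SURF.Sk
import Vale.Agent.P073Z.RCX
import Vale.Agent.P073Z.A12
import Vale.Agent.P073Z.DISC2
import Vale.Agent.P073Z.MAN

/-!
# Gluing two discs, unions of components
-/

open Set Metric Topology Filter

namespace P073.SF

variable {E : Type} [NormedAddCommGroup E] [NormedSpace ℝ E]

/-- a subdisc that meets the boundary exactly in a given arc -/
theorem cut_disc {D B β : Set E} {p q : E} (hD : ConBall 2 D B) (hβ : IsArc β p q)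
    (hB : β ⊆ B) : ∃ D' γ, IsArc γ p q ∧ ConBall 2 D' (γ ∪ β) ∧ D' ⊆ D ∧ D' ∩ B = β ∧
      γ ∩ B = {p, q} ∧ ∀ x ∈ β, x ≠ p → x ≠ q → D' ∈ 𝓝[D] x := by
  obtain ⟨β', hβ', hu, hi, -⟩ := ARCS.compl arcs hD.isCircleD hβ hB
  have hp := hB hβ.left_mem
  have hq := hB hβ.right_mem
  obtain ⟨γ, hγ, hγD, hγB⟩ := path.2.1 hD isOpen_univ
    (by rw [inter_univ]; exact hD.isConnected.isPreconnected) ⟨hD.1 hp, trivial⟩
    ⟨hD.1 hq, trivial⟩ hβ.ne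
  have hγB' : γ ∩ B = {p, q} := Subset.antisymm hγB
    (insert_subset ⟨hγ.left_mem, hp⟩ (singleton_subset_iff.2 ⟨hγ.right_mem, hq⟩))
  obtain ⟨D₁, D₂, h1, h2, h3, -, h5, h6⟩ :=
    xc hD hγ (hγD.trans inter_subset_left) hγB' hβ hβ' hu hi
  refine ⟨D₁, γ, hγ, h1, h3 ▸ subset_union_left, h5, hγB', fun x hx hxp hxq => ?_⟩
  have hx2 : x ∉ D₂ := fun h => by
    have h7 : x ∈ β ∩ β' := ⟨hx, h6 ▸ (⟨h, hB hx⟩ : x ∈ D₂ ∩ B)⟩
    rw [hi] at h7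
    exact h7.elim hxp hxq
  filter_upwards [mem_nhdsWithin_of_mem_nhds (h2.isClosed.isOpen_compl.mem_nhds hx2),
    self_mem_nhdsWithin] with y hy hyD
  rw [← h3] at hyD
  exact hyD.resolve_right hy

theorem glue2 : GLUE2 := by
  intro E _ _ D₁ B₁ D₂ B₂ β p q x h₁ h₂ hβ hb₁ hb₂ hi₁ _ hx hp hq
  obtain ⟨C₁, γ₁, -, c1, s1, e1, -, n1⟩ := cut_disc h₁ hβ hb₁
  obtain ⟨C₂, γ₂, -, c2, s2, e2, -, n2⟩ := cut_disc h₂ hβ hb₂
  have hβ1 : β ⊆ C₁ := e1 ▸ inter_subset_left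
  have hβ2 : β ⊆ C₂ := e2 ▸ inter_subset_left
  have he : C₁ ∩ C₂ = β := Subset.antisymm
    (fun y hy => e1 ▸ (⟨hy.1, hi₁ ⟨s1 hy.1, s2 hy.2⟩⟩ : y ∈ C₁ ∩ B₁)) (subset_inter hβ1 hβ2)
  refine ⟨C₁ ∪ C₂, _, uni c1 c2 hβ he subset_union_right subset_union_right,
    ⟨Or.inl (hβ1 hx), fun h => h.2 ⟨hx, fun h' => h'.elim hp hq⟩⟩, union_subset_union s1 s2, ?_⟩
  rw [nhdsWithin_union, mem_sup]
  exact ⟨mem_of_superset (n1 x hx hp hq) subset_union_left,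
    mem_of_superset (n2 x hx hp hq) subset_union_right⟩

theorem comp : COMP := by
  intro E _ _ _ X 𝓔 hX h𝓔
  obtain ⟨-, m2, -, -, m5⟩ := man X (n := 1) X.sub_carrier hX
  have h3 : ∀ i, ∃ d, X.dim d = 2 ∧ X.cell i ⊆ X.cell d := fun i =>
    let ⟨d, h1, _, h2⟩ := m2 i (X.cell_subset_carrier i); ⟨d, h2, h1⟩
  have h2 : ∀ d, X.dim d = 2 → (X.cell d ∩ ⋃ d ∈ 𝓔, X.cell d).Nonempty → d ∈ 𝓔 := by
    rintro d hd ⟨x, hx, hx'⟩
    obtain ⟨e, he, hxe⟩ := mem_iUnion₂.1 hx'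
    exact m5 x (X.cell_subset_carrier d hx) (· ∈ 𝓔)
      (fun a j j' _ ha s s' _ _ hj hj' hc => h𝓔.2 j hc j' ⟨hj, hj', a, ha, s, s'⟩) e d hxe hx
      (X.cell_subset_carrier e) (X.cell_subset_carrier d) (h𝓔.1 e he) hd he
  refine ⟨hX.of_nhds (iUnion₂_subset fun d _ => X.cell_subset_carrier d) fun x hx => ?_, h2, ?_⟩
  · have hxc : x ∈ X.carrier := iUnion₂_subset (fun d _ => X.cell_subset_carrier d) hx
    filter_upwards [mem_nhdsWithin_of_mem_nhds (X.eventually_star hxc), self_mem_nhdsWithin]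
      with y hy hyc
    obtain ⟨i, hi⟩ := X.mem_carrier.1 hyc
    obtain ⟨d, hd, hs⟩ := h3 i
    exact mem_iUnion₂.2 ⟨d, h2 d hd ⟨x, hy d (hs hi), hx⟩, hs hi⟩
  · refine Subset.antisymm (fun x hx => ?_) (iUnion₂_subset fun d _ => X.cell_subset_carrier d)
    obtain ⟨i, hi⟩ := X.mem_carrier.1 hx
    obtain ⟨d, hd, hs⟩ := h3 i
    exact mem_iUnion₂.2 ⟨d, hd, hs hi⟩

end P073.SF
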